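import Vale.Agent.P181.H983.TDefs

set_option autoImplicit false

/-!
# P181, tall shapes: the relation from words (S6)
-/

namespace Vale.Agent.P181.H879

open Vale.Agent.P181 Vale.Agent.P181.H280 Vale.Agent.P181.H270 Vale.Agent.P181.H983 Finset
  MvPolynomial

/-- **(S6)** the relation from words. -/
theorem s6 : S6 := by
  intro a k q F hF y hy
  let G : MultilinearMap ℂ
      (fun _ : (Fin k ⊕ (Fin a × Fin q)) × Fin a => MvPolynomial (Fin a) ℂ) ℂ :=
    ∑ e : Equiv.Perm (Fin k ⊕ (Fin a × Fin q)), ∑ σ : Fin k → Equiv.Perm (Fin a),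
      slotMul (slot e σ) F
  have hG : ∀ N : (Fin k ⊕ (Fin a × Fin q)) × Fin a → MvPolynomial (Fin a) ℂ, G N =
      ∑ e : Equiv.Perm (Fin k ⊕ (Fin a × Fin q)), ∑ σ : Fin k → Equiv.Perm (Fin a),
        F (cont (slot e σ) N) := by
    intro N
    simp only [G, _root_.sum_apply]
    rfl
  have h0 : G (fun pos => y pos.1 pos.2) = 0 := by
    apply multilinear_zero_of_span G
      (Set.range (X : Fin a → MvPolynomial (Fin a) ℂ)) _ _ (fun i => hy _ _)
    intro w hw
    choose u hu using hw
    have h1 : w = fun pos => X (u pos) := by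
      funext pos
      exact (hu pos).symm
    rw [hG, h1]
    exact hF u
  rw [hG] at h0
  rw [← h0]
  apply Finset.sum_congr rfl
  intro e _
  apply Finset.sum_congr rfl
  intro σ _
  congr 1
  funext p
  rw [cont_slot e σ y p]

end Vale.Agent.P181.H879
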