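import Vale.Agent.P181.TL.H639.BalB
import Vale.Agent.P181.DG6.H887.Sub

set_option autoImplicit false

/-!
# P181 (helper879): sequential filling

Contents with all parts at least `s` have smaller multiplicities than contents with all parts at
most `s`.
-/

open MvPolynomial

namespace Vale.Agent.P181.H879

open Vale.Agent.P181.T4 (HW mem_HW)
open Vale.Agent.P181.TL
open Vale.Agent.P181.DG6.H887 (lsub lsub_X lsub_mem_HW lsub_deg)
open Vale.Agent.P181.SZR3 (colD rowD_eq rowD_colD colH_colD rowH_colD)
open Vale.Agent.P181.SZ.R1b (exists_perm_of_map_eq)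

variable {m : ℕ}

/-! ### Transport along an injection of the columns -/

section inj

variable {σ τ : Type} [Fintype σ] [Fintype τ]

/-- The matrix of an injection. -/
noncomputable def mA (g : σ → τ) : σ → τ → ℂ := by
  classical
  exact fun j c => if g j = c then 1 else 0

/-- The transposed matrix. -/
noncomputable def mB (g : σ → τ) : τ → σ → ℂ := by
  classical
  exact fun c j => if g j = c then 1 else 0

lemma mA_ne {g : σ → τ} {j : σ} {c : τ} (h : mA g j c ≠ 0) : g j = c := by
  unfold mA at h
  by_contra h'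
  exact h (if_neg h')

lemma mB_ne {g : σ → τ} {j : σ} {c : τ} (h : mB g c j ≠ 0) : g j = c := by
  unfold mB at h
  by_contra h'
  exact h (if_neg h')

lemma lsub_mA (g : σ → τ) (p : Fin m × σ) : lsub m (mA g) (X p) = X (p.1, g p.2) := by
  classical
  rw [lsub_X, Finset.sum_eq_single (g p.2)]
  · simp [mA]
  · intro c _ hc
    simp [mA, Ne.symm hc]
  · intro h
    exact absurd (Finset.mem_univ _) h

lemma lsub_mB {g : σ → τ} (hg : Function.Injective g) (i : Fin m) (j : σ) :
    lsub m (mB g) (X (i, g j)) = X (i, j) := by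
  classical
  rw [lsub_X, Finset.sum_eq_single j]
  · simp [mB]
  · intro c _ hc
    have : g c ≠ g j := fun h => hc (hg h)
    simp [mB, this]
  · intro h
    exact absurd (Finset.mem_univ _) h

lemma lsub_BA {g : σ → τ} (hg : Function.Injective g) (f : MvPolynomial (Fin m × σ) ℂ) :
    lsub m (mB g) (lsub m (mA g) f) = f := by
  have h : (lsub m (mB g)).comp (lsub m (mA g)) = AlgHom.id ℂ _ := by
    apply MvPolynomial.algHom_ext
    rintro ⟨i, j⟩
    rw [AlgHom.comp_apply, lsub_mA, lsub_mB hg]
    rfl
  exact congrArg (fun φ : MvPolynomial (Fin m × σ) ℂ →ₐ[ℂ] MvPolynomial (Fin m × σ) ℂ => φ f) h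

lemma lsub_AB {g : σ → τ} (hg : Function.Injective g) {f : MvPolynomial (Fin m × τ) ℂ}
    (hf : ∀ v, coeff v f ≠ 0 → ∀ c, c ∉ Set.range g → ∑ i, v (i, c) = 0) :
    lsub m (mA g) (lsub m (mB g) f) = f := by
  classical
  have hm : ∀ v ∈ f.support, lsub m (mA g) (lsub m (mB g) (monomial v (coeff v f))) =
      monomial v (coeff v f) := by
    intro v hv
    have hv' := hf v (mem_support_iff.1 hv)
    have h1 : (monomial v (coeff v f) : MvPolynomial (Fin m × τ) ℂ) =
        C (coeff v f) * ∏ p, X p ^ v p := by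
      rw [monomial_eq, Finsupp.prod_fintype]
      intro i
      exact pow_zero _
    have h3 : lsub m (mA g) (lsub m (mB g) (C (coeff v f))) = C (coeff v f) := by
      have h4 : (C (coeff v f) : MvPolynomial (Fin m × τ) ℂ) = algebraMap ℂ _ (coeff v f) := rfl
      rw [h4, AlgHom.commutes, AlgHom.commutes]
    rw [h1, map_mul, map_mul, h3, map_prod, map_prod]
    congr 1
    refine Finset.prod_congr rfl fun p _ => ?_
    rw [map_pow, map_pow]
    obtain ⟨i, c⟩ := p
    by_cases hc : c ∈ Set.range g
    · obtain ⟨j, rfl⟩ := hc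
      rw [lsub_mB hg, lsub_mA]
    · have h5 : v (i, c) = 0 := by
        have := hv' c hc
        exact (Finset.sum_eq_zero_iff.1 this) i (Finset.mem_univ i)
      rw [h5, pow_zero, pow_zero]
  conv_lhs => rw [f.as_sum, map_sum, map_sum]
  rw [Finset.sum_congr rfl hm, ← f.as_sum]

/-- **Transport.** -/
theorem kk_inj {g : σ → τ} (hg : Function.Injective g) {d : σ → ℕ} {d' : τ → ℕ}
    (h1 : ∀ j, d' (g j) = d j) (h0 : ∀ c, c ∉ Set.range g → d' c = 0) (mu : Fin m → ℕ) :
    Module.finrank ℂ (KK m σ d mu) = Module.finrank ℂ (KK m τ d' mu) := by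
  classical
  have hA : ∀ f ∈ KK m σ d mu, lsub m (mA g) f ∈ KK m τ d' mu := by
    rintro f ⟨hf1, hf2⟩
    refine ⟨lsub_mem_HW _ hf1, fun v hv c => ?_⟩
    have h2 := lsub_deg (mA g) (fun j => g j = c) (fun c' => c' = c) (n := d' c)
      (fun j c' h => by rw [mA_ne h]) (f := f) ?_ v hv
    · simpa using h2
    · intro u hu
      by_cases hc : c ∈ Set.range g
      · obtain ⟨j, rfl⟩ := hc
        rw [Finset.sum_eq_single j]
        · rw [if_pos rfl, hf2 u hu, h1]
        · intro j' _ hj'
          exact if_neg fun h => hj' (hg h)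
        · intro h
          exact absurd (Finset.mem_univ _) h
      · rw [h0 c hc]
        exact Finset.sum_eq_zero fun j _ => if_neg fun h => hc ⟨j, h⟩
  have hB : ∀ f ∈ KK m τ d' mu, lsub m (mB g) f ∈ KK m σ d mu := by
    rintro f ⟨hf1, hf2⟩
    refine ⟨lsub_mem_HW _ hf1, fun v hv j => ?_⟩
    have h2 := lsub_deg (mB g) (fun c => c = g j) (fun j' => j' = j) (n := d j)
      (fun c j' h => by
        rw [← mB_ne h]
        exact ⟨fun h => by rw [h], fun h => hg h⟩) (f := f) ?_ v hv
    · simpa using h2
    · intro u hu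
      rw [Finset.sum_eq_single (g j)]
      · rw [if_pos rfl, hf2 u hu, h1]
      · intro c _ hc
        exact if_neg hc
      · intro h
        exact absurd (Finset.mem_univ _) h
  refine le_antisymm ?_ ?_
  · refine LinearMap.finrank_le_finrank_of_injective
      (f := (lsub m (mA g)).toLinearMap.restrict hA) ?_
    rw [← LinearMap.ker_eq_bot, LinearMap.ker_eq_bot']
    intro f hf
    have h2 : lsub m (mA g) (f : MvPolynomial (Fin m × σ) ℂ) = 0 := congrArg Subtype.val hf
    have h3 := lsub_BA hg (f : MvPolynomial (Fin m × σ) ℂ)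
    rw [h2, map_zero] at h3
    exact Subtype.ext h3.symm
  · refine LinearMap.finrank_le_finrank_of_injective
      (f := (lsub m (mB g)).toLinearMap.restrict hB) ?_
    rw [← LinearMap.ker_eq_bot, LinearMap.ker_eq_bot']
    intro f hf
    have h2 : lsub m (mB g) (f : MvPolynomial (Fin m × τ) ℂ) = 0 := congrArg Subtype.val hf
    have h3 := lsub_AB hg (f := (f : MvPolynomial (Fin m × τ) ℂ)) fun v hv c hc => by
      rw [f.2.2 v hv c, h0 c hc]
    rw [h2, map_zero] at h3
    exact Subtype.ext h3.symm

end inj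

/-! ### One unit -/

section step

variable {σ : Type} [Fintype σ] [DecidableEq σ]

/-- The family of all `KK` is stable under polarizations. -/
lemma stable (mu : Fin m → ℕ) :
    H463.Stable (K := ℂ) (ρ := Fin m) (σ := σ) (fun d => KK m σ d mu) where
  deg := fun d f hf v hv j => by
    have h := hf.2 v hv j
    change ((∑ r, v (r, j) : ℕ) : ℤ) = (d j : ℤ)
    rw [h]
  pol := fun d i j hij f hf => by
    have e : H463.pol ℂ i j f = colD i j f := rfl
    rw [e]
    refine ⟨⟨rowH_colD hf.1.1, fun s r hsr => ?_⟩, ?_⟩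
    · rw [← rowD_eq, rowD_colD, rowD_eq, hf.1.2 s r hsr, map_zero]
    · refine colH_colD (d := d + Pi.single j 1) hf.2 fun l => ?_
      simp only [Pi.add_apply, Pi.single_apply, @eq_comm _ i l, @eq_comm _ j l]
      ring
  fin := fun d => inferInstance

end step

/-! ### Lists of contents -/

/-- The multiplicity for a list of contents. -/
noncomputable def kl (mu : Fin m → ℕ) (l : List ℕ) : ℕ :=
  Module.finrank ℂ (KK m (Fin l.length) l.get mu)

theorem map_get (l : List ℕ) : (Finset.univ : Finset (Fin l.length)).val.map l.get = l := by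
  simp [List.ofFn_get, ← List.ofFn_eq_map]

theorem kl_eq {σ : Type} [Fintype σ] (mu : Fin m → ℕ) (d : σ → ℕ) (l : List ℕ)
    (h : Finset.univ.val.map d = (l : Multiset ℕ)) :
    Module.finrank ℂ (KK m σ d mu) = kl mu l := by
  classical
  have hc : Fintype.card σ = Fintype.card (Fin l.length) := by
    have := congrArg Multiset.card h
    rw [Multiset.card_map, Multiset.coe_card] at this
    rw [Fintype.card_fin, ← this]
    rfl
  have e : σ ≃ Fin l.length := Fintype.equivOfCardEq hc
  have h2 : (Finset.univ : Finset (Fin l.length)).val.map (fun j => d (e.symm j)) =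
      (Finset.univ : Finset (Fin l.length)).val.map l.get := by
    rw [map_get, ← h]
    have h3 : (Finset.univ : Finset (Fin l.length)).val =
        (Finset.univ : Finset σ).val.map e := by
      have := congrArg Finset.val (Finset.map_univ_equiv e)
      rw [Finset.map_val] at this
      exact this.symm
    rw [h3, Multiset.map_map]
    simp
  obtain ⟨t, ht⟩ := exists_perm_of_map_eq _ _ h2
  unfold kl
  refine kk_inj (g := fun j => t.symm (e j)) (t.symm.injective.comp e.injective) (fun j => ?_)
    (fun c hc => ?_) mu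
  · rw [ht]
    simp
  · exact absurd ⟨e.symm (t c), by simp⟩ hc

theorem kl_perm (mu : Fin m → ℕ) {l l' : List ℕ} (h : l.Perm l') : kl mu l = kl mu l' :=
  kl_eq mu l.get l' (by rw [map_get]; exact Multiset.coe_eq_coe.2 h)

theorem kl_zero (mu : Fin m → ℕ) (l : List ℕ) : kl mu (0 :: l) = kl mu l := by
  refine (kk_inj (σ := Fin l.length) (τ := Fin (0 :: l).length) (d := l.get)
    (d' := (0 :: l).get) (g := fun j => ⟨(j : ℕ) + 1, Nat.succ_lt_succ j.2⟩)
    (fun i j h => ?_) (fun j => rfl) (fun c hc => ?_) mu).symm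
  · have := congrArg Fin.val h
    exact Fin.ext (Nat.succ.inj this)
  · rcases c with ⟨c, h⟩
    rcases c with _ | c
    · rfl
    · exact absurd ⟨⟨c, Nat.lt_of_succ_lt_succ h⟩, rfl⟩ hc

theorem kl_step (mu : Fin m → ℕ) (x y : ℕ) (l : List ℕ) (h : x ≤ y) :
    kl mu (x :: (y + 1) :: l) ≤ kl mu ((x + 1) :: y :: l) := by
  have hst := stable (σ := Fin (x :: y :: l).length) mu
  have hs : ∀ i c : Fin (x :: y :: l).length, (Pi.single i 1 : Fin (x :: y :: l).length → ℕ) c =
      if (c : ℕ) = (i : ℕ) then 1 else 0 := by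
    intro i c
    by_cases h : c = i
    · rw [h, Pi.single_eq_same, if_pos rfl]
    · rw [Pi.single_eq_of_ne h, if_neg fun h' => h (Fin.ext h')]
  have h0l : 0 < (x :: y :: l).length := Nat.succ_pos _
  have h1l : 1 < (x :: y :: l).length := Nat.succ_lt_succ (Nat.succ_pos _)
  have h01 : (⟨0, h0l⟩ : Fin (x :: y :: l).length) ≠ ⟨1, h1l⟩ := by
    intro h
    exact absurd (congrArg Fin.val h) (by simp)
  have h1 := hst.step (x :: y :: l).get (i := ⟨0, h0l⟩) (j := ⟨1, h1l⟩) h01 h
  have e1 : ((x :: y :: l).get + Pi.single ⟨1, h1l⟩ 1 : Fin (x :: y :: l).length → ℕ) =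
      (x :: (y + 1) :: l).get := by
    funext c
    rw [Pi.add_apply, hs]
    rcases c with ⟨c, hc⟩
    rcases c with _ | _ | c
    · rfl
    · rfl
    · exact congrArg (l.get ⟨c, Nat.lt_of_succ_lt_succ (Nat.lt_of_succ_lt_succ hc)⟩ + ·)
        (if_neg (by simp))
  have e2 : ((x :: y :: l).get + Pi.single ⟨0, h0l⟩ 1 : Fin (x :: y :: l).length → ℕ) =
      ((x + 1) :: y :: l).get := by
    funext c
    rw [Pi.add_apply, hs]
    rcases c with ⟨c, hc⟩
    rcases c with _ | _ | c
    · rfl
    · rfl
    · exact congrArg (l.get ⟨c, Nat.lt_of_succ_lt_succ (Nat.lt_of_succ_lt_succ hc)⟩ + ·)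
        (if_neg (by simp))
  rw [e1, e2] at h1
  exact h1

/-- A transfer between two letters. -/
theorem kl_move (mu : Fin m → ℕ) (l : List ℕ) : ∀ (t x y : ℕ), x + 2 * t ≤ y + 1 →
    t ≤ y → kl mu (x :: y :: l) ≤ kl mu ((x + t) :: (y - t) :: l) := by
  intro t
  induction t with
  | zero => intro x y _ _; simp
  | succ t ih =>
    intro x y h hy
    refine (ih x y (by omega) (by omega)).trans ?_
    obtain ⟨z, rfl⟩ : ∃ z, y = z + t + 1 := ⟨y - t - 1, by omega⟩
    have e1 : z + t + 1 - t = z + 1 := by omega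
    have e2 : z + t + 1 - (t + 1) = z := by omega
    rw [e1, e2]
    exact kl_step mu (x + t) z l (by omega)

/-- Two letters: the maximum does not grow. -/
theorem kl_pair (mu : Fin m → ℕ) (l : List ℕ) {x y x' y' : ℕ} (h : x + y = x' + y')
    (hx : x' ≤ max x y) (hy : y' ≤ max x y) :
    kl mu (x :: y :: l) ≤ kl mu (x' :: y' :: l) := by
  have hsw : ∀ p q : ℕ, kl mu (p :: q :: l) = kl mu (q :: p :: l) := fun p q =>
    kl_perm mu (List.Perm.swap q p l)
  wlog hxy : x ≤ y generalizing x y
  · rw [hsw x y]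
    exact this (by omega) (by rwa [max_comm]) (by rwa [max_comm]) (le_of_not_ge hxy)
  wlog hxy' : x' ≤ y' generalizing x' y'
  · rw [hsw x' y']
    exact this (by omega) hy hx (le_of_not_ge hxy')
  rw [max_eq_right hxy] at hx hy
  obtain ⟨t, rfl⟩ : ∃ t, x' = x + t := ⟨x' - x, by omega⟩
  have e : y' = y - t := by omega
  rw [e]
  exact kl_move mu l t x y (by omega) (by omega)

/-- **Sequential filling**, with a rest `v`. -/
theorem kl_fill (mu : Fin m → ℕ) (s : ℕ) : ∀ (us : List ℕ), (∀ u ∈ us, u ≤ s) →
    ∀ (v : ℕ) (rs dn : List ℕ), (∀ r ∈ rs, s ≤ r) → us.sum = v + rs.sum →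
      kl mu (v :: (rs ++ dn)) ≤ kl mu (us ++ dn) := by
  intro us
  induction us with
  | nil =>
    intro _ v rs
    induction rs with
    | nil =>
      intro dn _ h
      have hv : v = 0 := by
        simp at h
        omega
      subst hv
      simp only [List.nil_append]
      exact (kl_zero mu dn).le
    | cons r rs ih =>
      intro dn hr h
      have hv : v = 0 ∧ r = 0 ∧ rs.sum = 0 := by
        simp at h
        omega
      obtain ⟨rfl, rfl, h3⟩ := hv
      rw [List.cons_append, kl_zero]
      refine ih dn (fun x hx => hr x (List.mem_cons_of_mem _ hx)) ?_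
      simp [h3]
  | cons u us ih =>
    intro hu v rs dn hr h
    have hu' : ∀ x ∈ us, x ≤ s := fun x hx => hu x (List.mem_cons_of_mem _ hx)
    have hus : u ≤ s := hu u List.mem_cons_self
    rw [List.sum_cons] at h
    by_cases hvu : u ≤ v
    · have h1 : kl mu (v :: (rs ++ dn)) ≤ kl mu (u :: (v - u) :: (rs ++ dn)) := by
        rw [← kl_zero mu (v :: (rs ++ dn))]
        refine kl_pair mu _ (by omega) ?_ ?_
        · rw [Nat.zero_max]
          exact hvu
        · rw [Nat.zero_max]
          omega
      have h2 : kl mu (u :: (v - u) :: (rs ++ dn)) = kl mu ((v - u) :: (rs ++ (u :: dn))) := by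
        apply kl_perm
        refine (List.Perm.swap _ _ _).trans (List.Perm.cons _ ?_)
        exact List.perm_middle.symm
      have h3 := ih hu' (v - u) rs (u :: dn) hr (by omega)
      have h4 : kl mu (us ++ (u :: dn)) = kl mu (u :: us ++ dn) := kl_perm mu List.perm_middle
      rw [← h4]
      exact (h1.trans h2.le).trans h3
    · cases rs with
      | nil =>
        simp at h
        omega
      | cons r rs =>
        have hrs : s ≤ r := hr r List.mem_cons_self
        rw [List.sum_cons] at h
        have h1 : kl mu (v :: (r :: rs ++ dn)) ≤ kl mu (u :: (v + r - u) :: (rs ++ dn)) := by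
          rw [List.cons_append]
          refine kl_pair mu _ (by omega) ?_ ?_
          · exact (hus.trans hrs).trans (le_max_right _ _)
          · exact le_trans (by omega) (le_max_right _ _)
        have h2 : kl mu (u :: (v + r - u) :: (rs ++ dn)) =
            kl mu ((v + r - u) :: (rs ++ (u :: dn))) := by
          apply kl_perm
          refine (List.Perm.swap _ _ _).trans (List.Perm.cons _ ?_)
          exact List.perm_middle.symm
        have h3 := ih hu' (v + r - u) rs (u :: dn)
          (fun x hx => hr x (List.mem_cons_of_mem _ hx)) (by omega)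
        have h4 : kl mu (us ++ (u :: dn)) = kl mu (u :: us ++ dn) := kl_perm mu List.perm_middle
        rw [← h4]
        exact (h1.trans h2.le).trans h3

/-- **Sequential filling.** -/
theorem fill {α β : Type} [Fintype α] [Fintype β] (c : α → ℕ) (u : β → ℕ) (mu : Fin m → ℕ)
    (s : ℕ) (hc : ∀ i, s ≤ c i) (hu : ∀ j, u j ≤ s) (h : ∑ i, c i = ∑ j, u j) :
    Module.finrank ℂ (KK m α c mu) ≤ Module.finrank ℂ (KK m β u mu) := by
  classical
  set lc : List ℕ := (Finset.univ.val.map c : Multiset ℕ).toList with hlc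
  set lu : List ℕ := (Finset.univ.val.map u : Multiset ℕ).toList with hlu
  rw [kl_eq mu c lc (Multiset.coe_toList _).symm, kl_eq mu u lu (Multiset.coe_toList _).symm,
    ← kl_zero mu lc]
  have h1 := kl_fill mu s lu (fun x hx => ?_) 0 lc [] (fun x hx => ?_) ?_
  · simpa using h1
  · rw [hlu, Multiset.mem_toList, Multiset.mem_map] at hx
    obtain ⟨j, -, rfl⟩ := hx
    exact hu j
  · rw [hlc, Multiset.mem_toList, Multiset.mem_map] at hx
    obtain ⟨j, -, rfl⟩ := hx
    exact hc j
  · rw [hlu, hlc, Multiset.sum_toList, Multiset.sum_toList, zero_add]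
    exact h.symm

end Vale.Agent.P181.H879
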