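import Vale.Agent.P181.H983.TDefs

set_option autoImplicit false

/-!
# P181, tall shapes: one more column (S7)
-/

namespace Vale.Agent.P181.H879

open Vale.Agent.P181 Vale.Agent.P181.H280 Vale.Agent.P181.H270 Vale.Agent.P181.H983 Finset

variable {A : Type*} [CommRing A] [Algebra ℂ A]

/-- The linear coefficient of a form along a line which vanishes identically. -/
lemma lin_coeff {a : ℕ} (φ : MultilinearMap ℂ (fun _ : Fin a => A) ℂ) (x y : Fin a → A)
    (h : ∀ t : ℂ, φ (fun i => x i + t • y i) = 0) :
    ∑ i, φ (Function.update x i (y i)) = 0 := by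
  classical
  let p : Polynomial ℂ :=
    ∑ s : Finset (Fin a), Polynomial.C (φ (s.piecewise y x)) * Polynomial.X ^ s.card
  have hev : ∀ t, p.eval t = 0 := by
    intro t
    have h1 : (fun i => x i + t • y i) = t • y + x := by
      funext i
      exact add_comm _ _
    rw [← h t, h1, MultilinearMap.map_add_univ]
    simp only [p, Polynomial.eval_finsetSum, Polynomial.eval_mul, Polynomial.eval_C,
      Polynomial.eval_pow, Polynomial.eval_X]
    apply Finset.sum_congr rfl
    intro s _
    have h2 : s.piecewise (t • y) x = s.piecewise (fun i => t • (s.piecewise y x) i)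
        (s.piecewise y x) := by
      funext i
      by_cases hi : i ∈ s
      · simp [Finset.piecewise, hi]
      · simp [Finset.piecewise, hi]
    rw [h2, MultilinearMap.map_piecewise_smul]
    simp [mul_comm]
  have hp : p = 0 := Polynomial.funext (fun t => by rw [hev, Polynomial.eval_zero])
  have h1 : p.coeff 1 = 0 := by rw [hp, Polynomial.coeff_zero]
  have h2 : p.coeff 1 = ∑ s : Finset (Fin a), if s.card = 1 then φ (s.piecewise y x) else 0 := by
    simp only [p, Polynomial.finsetSum_coeff, Polynomial.coeff_C_mul, Polynomial.coeff_X_pow,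
      mul_ite, mul_one, mul_zero]
    apply Finset.sum_congr rfl
    intro s _
    simp only [eq_comm]
  rw [h2, ← Finset.sum_filter] at h1
  have h3 : (univ.filter fun s : Finset (Fin a) => s.card = 1) =
      (univ : Finset (Fin a)).map ⟨fun i => ({i} : Finset (Fin a)), Finset.singleton_injective⟩ := by
    ext s
    simp only [Finset.mem_filter, Finset.mem_univ, true_and, Finset.mem_map,
      Function.Embedding.coeFn_mk, Finset.card_eq_one]
    constructor
    · rintro ⟨i, hi⟩
      exact ⟨i, hi.symm⟩
    · rintro ⟨i, hi⟩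
      exact ⟨i, hi.symm⟩
  rw [h3, Finset.sum_map] at h1
  rw [← h1]
  apply Finset.sum_congr rfl
  intro i _
  congr 1
  funext j
  simp only [Function.Embedding.coeFn_mk]
  by_cases hj : j = i
  · subst hj
    simp
  · rw [Function.update_of_ne hj, Finset.piecewise_eq_of_notMem]
    simpa using hj

/-- **(S7)** one more column. -/
theorem s7 : S7 := by
  intro A _ _ L c φ x hx hφ w hw v hv0 hv
  classical
  -- the polarised identity
  have hpol : ∀ z ∈ L, ∀ y : Fin (c + 3) → A, (∀ i, y i ∈ L ^ (c + 1)) →
      ∑ i, φ (Function.update (fun j => w * y j) i (z * y i)) = 0 := by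
    intro z hz y hy
    apply lin_coeff φ (fun j => w * y j) (fun j => z * y j)
    intro t
    rw [← hφ (w + t • z) (L.add_mem hw (L.smul_mem t hz)) y hy]
    congr 1
    funext i
    rw [add_mul, smul_mul_assoc]
  let Y : Equiv.Perm (Fin (c + 3)) → Fin (c + 3) → A := fun σ p =>
    if p = 0 then v 0 else x (σ p) * v p
  have hY : ∀ σ i, Y σ i ∈ L ^ (c + 1) := by
    intro σ i
    simp only [Y]
    split_ifs with h
    · exact hv0
    · rw [pow_succ']
      exact Submodule.mul_mem_mul (hx _) (hv i h)
  let g : Fin (c + 3) → Equiv.Perm (Fin (c + 3)) → ℂ := fun i σ =>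
    φ (Function.update (fun j => w * Y σ j) i (x (σ 0) * Y σ i))
  have hg : ∀ σ, ∑ i, g i σ = 0 := fun σ => hpol _ (hx _) _ (hY σ)
  have hg0 : ∀ σ, φ (fun p => x (σ p) * (if p = 0 then v 0 else w * v p)) = g 0 σ := by
    intro σ
    simp only [g]
    congr 1
    funext p
    by_cases hp : p = 0
    · subst hp
      simp [Y]
    · rw [if_neg hp, Function.update_of_ne hp]
      simp only [Y]
      rw [if_neg hp]
      ring
  have hgi : ∀ i, i ≠ 0 → ∑ σ : Equiv.Perm (Fin (c + 3)),
      ((Equiv.Perm.sign σ : ℤ) : ℂ) * g i σ = 0 := by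
    intro i hi
    apply sign_sum_zero (g i) 0 i (Ne.symm hi)
    intro τ
    simp only [g]
    congr 1
    funext j
    by_cases hj : j = i
    · subst hj
      rw [Function.update_self, Function.update_self]
      simp only [Y, if_neg hi]
      rw [Equiv.Perm.coe_mul, Function.comp_apply, Function.comp_apply,
        Equiv.swap_apply_left, Equiv.swap_apply_right]
      ring
    · rw [Function.update_of_ne hj, Function.update_of_ne hj]
      congr 1
      simp only [Y]
      by_cases hj0 : j = 0
      · rw [if_pos hj0, if_pos hj0]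
      · rw [if_neg hj0, if_neg hj0, Equiv.Perm.coe_mul, Function.comp_apply,
          Equiv.swap_apply_of_ne_of_ne hj0 hj]
  rw [altC_apply]
  have h1 : ∑ i, ∑ σ : Equiv.Perm (Fin (c + 3)), ((Equiv.Perm.sign σ : ℤ) : ℂ) * g i σ = 0 := by
    rw [Finset.sum_comm]
    apply Finset.sum_eq_zero
    intro σ _
    rw [← Finset.mul_sum, hg, mul_zero]
  rw [← Finset.add_sum_erase _ _ (Finset.mem_univ (0 : Fin (c + 3))),
    Finset.sum_eq_zero (s := univ.erase (0 : Fin (c + 3)))
      (fun i hi => hgi i (Finset.ne_of_mem_erase hi)), add_zero] at h1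
  rw [← h1]
  apply Finset.sum_congr rfl
  intro σ _
  rw [← hg0]

end Vale.Agent.P181.H879
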